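import Vale.Agent.P095.Final

open Vale.Agent.P095.St Vale.Agent.P101.V2

theorem Vale.Agent.Results.P095.A_full.result :
    (∃ (Z : Type) (_ : CStarAlgebra Z), IsJiangSu Z) ∧
    ∀ (Z : Type) [CStarAlgebra Z], IsJiangSu Z → SimpleMonotracial Z ∧
      ∀ (A : Type) [NonUnitalCStarAlgebra A] [PartialOrder A] [StarOrderedRing A]
        [TopologicalSpace.SeparableSpace A], HasMin A Z ∧
        (IsSimple A → IsNuclear A → IsStable A Z →
          ∀ (G : Type) [Group G] [Countable G], IsAmenable G → AllStable G A Z) :=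
  ⟨P101.exists_jiangSu2, fun Z _ h => have hZ := P101.isJiangSu_iff.1 h; ⟨⟨hZ.isSimpleRing,
    hZ.not_finiteDimensional, hZ.existsUnique_trace⟩, fun A _ _ _ _ =>
      ⟨P095.hasMin A Z, fun h1 h2 h3 _ _ _ hG => P095.allStable hZ h1 h2 h3 hG⟩⟩⟩
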